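import Vale.Agent.P237.Quant.TailData.N98.tailN98N0Part0
import Vale.Agent.P237.Quant.TailData.N98.tailN98N0Part1
import Vale.Agent.P237.Quant.TailData.N98.tailN98N0Part2
import Vale.Agent.P237.Quant.TailData.N98.tailN98N0Part3
import Vale.Agent.P237.Quant.TailData.N98.tailN98N0Part4
import Vale.Agent.P237.Quant.TailData.N98.tailN98N0Part5
import Vale.Agent.P237.Quant.TailData.N98.tailN98N0Part6
import Vale.Agent.P237.Quant.TailData.N98.tailN98N0Part7
import Vale.Agent.P237.Quant.TailData.N98.tailN98N0Part8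

/-!
Tail calibration tailN98N0 in dimension 98. The check. Generated data, checked by the kernel.
-/

set_option maxRecDepth 100000
set_option linter.all false

namespace Vale.Agent.P237.Quant.TailData

open TailCert


/-- The calibration. -/
noncomputable def tailN98N0 : Cfg :=
  tailN98N0Base.withIvals (List.flatten [tailN98N0L0, tailN98N0L1, tailN98N0L2, tailN98N0L3, tailN98N0L4, tailN98N0L5, tailN98N0L6, tailN98N0L7, tailN98N0L8, tailN98N0L9, tailN98N0L10, tailN98N0L11, tailN98N0L12, tailN98N0L13, tailN98N0L14, tailN98N0L15, tailN98N0L16, tailN98N0L17, tailN98N0L18, tailN98N0L19, tailN98N0L20, tailN98N0L21, tailN98N0L22, tailN98N0L23, tailN98N0L24, tailN98N0L25, tailN98N0L26, tailN98N0L27, tailN98N0L28, tailN98N0L29, tailN98N0L30, tailN98N0L31, tailN98N0L32, tailN98N0L33, tailN98N0L34, tailN98N0L35])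

theorem tailN98N0_parts : [tailN98N0L0, tailN98N0L1, tailN98N0L2, tailN98N0L3, tailN98N0L4, tailN98N0L5, tailN98N0L6, tailN98N0L7, tailN98N0L8, tailN98N0L9, tailN98N0L10, tailN98N0L11, tailN98N0L12, tailN98N0L13, tailN98N0L14, tailN98N0L15, tailN98N0L16, tailN98N0L17, tailN98N0L18, tailN98N0L19, tailN98N0L20, tailN98N0L21, tailN98N0L22, tailN98N0L23, tailN98N0L24, tailN98N0L25, tailN98N0L26, tailN98N0L27, tailN98N0L28, tailN98N0L29, tailN98N0L30, tailN98N0L31, tailN98N0L32, tailN98N0L33, tailN98N0L34, tailN98N0L35].Forall fun l => tailN98N0Base.partUsed tailN98N0Used l = true := by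
  simp only [List.forall_cons, List.Forall]
  exact ⟨tailN98N0L0_ok, tailN98N0L1_ok, tailN98N0L2_ok, tailN98N0L3_ok, tailN98N0L4_ok, tailN98N0L5_ok, tailN98N0L6_ok, tailN98N0L7_ok, tailN98N0L8_ok, tailN98N0L9_ok, tailN98N0L10_ok, tailN98N0L11_ok, tailN98N0L12_ok, tailN98N0L13_ok, tailN98N0L14_ok, tailN98N0L15_ok, tailN98N0L16_ok, tailN98N0L17_ok, tailN98N0L18_ok, tailN98N0L19_ok, tailN98N0L20_ok, tailN98N0L21_ok, tailN98N0L22_ok, tailN98N0L23_ok, tailN98N0L24_ok, tailN98N0L25_ok, tailN98N0L26_ok, tailN98N0L27_ok, tailN98N0L28_ok, tailN98N0L29_ok, tailN98N0L30_ok, tailN98N0L31_ok, tailN98N0L32_ok, tailN98N0L33_ok, tailN98N0L34_ok, tailN98N0L35_ok⟩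

theorem tailN98N0_check : tailN98N0.check = true :=
  Cfg.check_of_parts (by decide +kernel) tailN98N0_parts

end Vale.Agent.P237.Quant.TailData
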