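import Vale.Agent.P237.Quant.TailData.N98.tailN98N1Part0
import Vale.Agent.P237.Quant.TailData.N98.tailN98N1Part1
import Vale.Agent.P237.Quant.TailData.N98.tailN98N1Part2
import Vale.Agent.P237.Quant.TailData.N98.tailN98N1Part3
import Vale.Agent.P237.Quant.TailData.N98.tailN98N1Part4
import Vale.Agent.P237.Quant.TailData.N98.tailN98N1Part5
import Vale.Agent.P237.Quant.TailData.N98.tailN98N1Part6

/-!
Tail calibration tailN98N1 in dimension 98. The check. Generated data, checked by the kernel.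
-/

set_option maxRecDepth 100000
set_option linter.all false

namespace Vale.Agent.P237.Quant.TailData

open TailCert


/-- The calibration. -/
noncomputable def tailN98N1 : Cfg :=
  tailN98N1Base.withIvals (List.flatten [tailN98N1L0, tailN98N1L1, tailN98N1L2, tailN98N1L3, tailN98N1L4, tailN98N1L5, tailN98N1L6, tailN98N1L7, tailN98N1L8, tailN98N1L9, tailN98N1L10, tailN98N1L11, tailN98N1L12, tailN98N1L13, tailN98N1L14, tailN98N1L15, tailN98N1L16, tailN98N1L17, tailN98N1L18, tailN98N1L19, tailN98N1L20, tailN98N1L21, tailN98N1L22, tailN98N1L23, tailN98N1L24, tailN98N1L25, tailN98N1L26, tailN98N1L27])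

theorem tailN98N1_parts : [tailN98N1L0, tailN98N1L1, tailN98N1L2, tailN98N1L3, tailN98N1L4, tailN98N1L5, tailN98N1L6, tailN98N1L7, tailN98N1L8, tailN98N1L9, tailN98N1L10, tailN98N1L11, tailN98N1L12, tailN98N1L13, tailN98N1L14, tailN98N1L15, tailN98N1L16, tailN98N1L17, tailN98N1L18, tailN98N1L19, tailN98N1L20, tailN98N1L21, tailN98N1L22, tailN98N1L23, tailN98N1L24, tailN98N1L25, tailN98N1L26, tailN98N1L27].Forall fun l => tailN98N1Base.partUsed tailN98N1Used l = true := by
  simp only [List.forall_cons, List.Forall]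
  exact ⟨tailN98N1L0_ok, tailN98N1L1_ok, tailN98N1L2_ok, tailN98N1L3_ok, tailN98N1L4_ok, tailN98N1L5_ok, tailN98N1L6_ok, tailN98N1L7_ok, tailN98N1L8_ok, tailN98N1L9_ok, tailN98N1L10_ok, tailN98N1L11_ok, tailN98N1L12_ok, tailN98N1L13_ok, tailN98N1L14_ok, tailN98N1L15_ok, tailN98N1L16_ok, tailN98N1L17_ok, tailN98N1L18_ok, tailN98N1L19_ok, tailN98N1L20_ok, tailN98N1L21_ok, tailN98N1L22_ok, tailN98N1L23_ok, tailN98N1L24_ok, tailN98N1L25_ok, tailN98N1L26_ok, tailN98N1L27_ok⟩

theorem tailN98N1_check : tailN98N1.check = true :=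
  Cfg.check_of_parts (by decide +kernel) tailN98N1_parts

end Vale.Agent.P237.Quant.TailData
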