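import Vale.Agent.P237.Quant.TailData.N98.tailN98P2Part0
import Vale.Agent.P237.Quant.TailData.N98.tailN98P2Part1
import Vale.Agent.P237.Quant.TailData.N98.tailN98P2Part2
import Vale.Agent.P237.Quant.TailData.N98.tailN98P2Part3
import Vale.Agent.P237.Quant.TailData.N98.tailN98P2Part4
import Vale.Agent.P237.Quant.TailData.N98.tailN98P2Part5

/-!
Tail calibration tailN98P2 in dimension 98. The check. Generated data, checked by the kernel.
-/

set_option maxRecDepth 100000
set_option linter.all false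

namespace Vale.Agent.P237.Quant.TailData

open TailCert


/-- The calibration. -/
noncomputable def tailN98P2 : Cfg :=
  tailN98P2Base.withIvals (List.flatten [tailN98P2L0, tailN98P2L1, tailN98P2L2, tailN98P2L3, tailN98P2L4, tailN98P2L5, tailN98P2L6, tailN98P2L7, tailN98P2L8, tailN98P2L9, tailN98P2L10, tailN98P2L11, tailN98P2L12, tailN98P2L13, tailN98P2L14, tailN98P2L15, tailN98P2L16, tailN98P2L17, tailN98P2L18, tailN98P2L19, tailN98P2L20, tailN98P2L21, tailN98P2L22, tailN98P2L23])

theorem tailN98P2_parts : [tailN98P2L0, tailN98P2L1, tailN98P2L2, tailN98P2L3, tailN98P2L4, tailN98P2L5, tailN98P2L6, tailN98P2L7, tailN98P2L8, tailN98P2L9, tailN98P2L10, tailN98P2L11, tailN98P2L12, tailN98P2L13, tailN98P2L14, tailN98P2L15, tailN98P2L16, tailN98P2L17, tailN98P2L18, tailN98P2L19, tailN98P2L20, tailN98P2L21, tailN98P2L22, tailN98P2L23].Forall fun l => tailN98P2Base.partUsed tailN98P2Used l = true := by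
  simp only [List.forall_cons, List.Forall]
  exact ⟨tailN98P2L0_ok, tailN98P2L1_ok, tailN98P2L2_ok, tailN98P2L3_ok, tailN98P2L4_ok, tailN98P2L5_ok, tailN98P2L6_ok, tailN98P2L7_ok, tailN98P2L8_ok, tailN98P2L9_ok, tailN98P2L10_ok, tailN98P2L11_ok, tailN98P2L12_ok, tailN98P2L13_ok, tailN98P2L14_ok, tailN98P2L15_ok, tailN98P2L16_ok, tailN98P2L17_ok, tailN98P2L18_ok, tailN98P2L19_ok, tailN98P2L20_ok, tailN98P2L21_ok, tailN98P2L22_ok, tailN98P2L23_ok⟩

theorem tailN98P2_check : tailN98P2.check = true :=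
  Cfg.check_of_parts (by decide +kernel) tailN98P2_parts

end Vale.Agent.P237.Quant.TailData
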